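import Vale.Agent.P073Y.St.Tgt
import Vale.Agent.P073.SCH.Amb

/-!
# Opening holes of universal size in a monotone Lipschitz homeomorphism
-/

open Set Metric Topology Filter
open scoped NNReal

namespace P073.Op

open P073.St.Tg (med med_zero med_of_le med_sub_le)

/-- monotone for the Euclidean pairing -/
def Mono (G : E3 → E3) : Prop := ∀ y y', 0 ≤ ∑ i, (G y i - G y' i) * (y i - y' i)

/-- round the images of finitely many points the map is changed into a homothety -/
def OPEN : Prop := ∀ (K : ℝ≥0) (G : ConHomeo (univ : Set E3) (univ : Set E3)) {ι : Type}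
  (s : Finset ι) (y : ι → E3) (R : ℝ), 1 ≤ K → LipschitzWith K G.toFun → Mono G.toFun → 0 < R →
  (∀ i ∈ s, ∀ j ∈ s, i ≠ j → 2 * R ≤ dist (G.toFun (y i)) (G.toFun (y j))) →
  ∃ H : ConHomeo (univ : Set E3) (univ : Set E3), LipschitzWith (300 * K) H.toFun ∧
    (∀ x, (∀ i ∈ s, R ≤ dist (G.toFun x) (G.toFun (y i))) → H.toFun x = G.toFun x) ∧
    (∀ i ∈ s, ∀ x, dist (G.toFun x) (G.toFun (y i)) < R →
      dist (H.toFun x) (G.toFun (y i)) < R) ∧
    ∀ i ∈ s, ∀ x ∈ closedBall (y i) (R / (384 * K)),
      H.toFun x = G.toFun (y i) + (16 * K : ℝ) • (x - y i)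

/-- monotone on a set -/
def MonoOn (G : E3 → E3) (X : Set E3) : Prop :=
  ∀ y ∈ X, ∀ y' ∈ X, 0 ≤ ∑ i, (G y i - G y' i) * (y i - y' i)

/-- the same, for a map that is monotone over the balls only -/
def OPENL : Prop := ∀ (K : ℝ≥0) (G : ConHomeo (univ : Set E3) (univ : Set E3)) {ι : Type}
  (s : Finset ι) (y : ι → E3) (R : ℝ), 1 ≤ K → LipschitzWith K G.toFun →
  (∀ i ∈ s, MonoOn G.toFun (G.toFun ⁻¹' ball (G.toFun (y i)) R)) → 0 < R →
  (∀ i ∈ s, ∀ j ∈ s, i ≠ j → 2 * R ≤ dist (G.toFun (y i)) (G.toFun (y j))) →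
  ∃ H : ConHomeo (univ : Set E3) (univ : Set E3), LipschitzWith (300 * K) H.toFun ∧
    (∀ x, (∀ i ∈ s, R ≤ dist (G.toFun x) (G.toFun (y i))) → H.toFun x = G.toFun x) ∧
    (∀ i ∈ s, ∀ x, dist (G.toFun x) (G.toFun (y i)) < R →
      dist (H.toFun x) (G.toFun (y i)) < R) ∧
    ∀ i ∈ s, ∀ x ∈ closedBall (y i) (R / (384 * K)),
      H.toFun x = G.toFun (y i) + (16 * K : ℝ) • (x - y i)

abbrev CH := ConHomeo (univ : Set E3) (univ : Set E3)

namespace Opn

theorem abs_med {d : ℝ} (hd : 0 ≤ d) (v : ℝ) : |med 0 d v| ≤ d := by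
  unfold med
  exact abs_le.2 ⟨le_trans (by linarith) (le_max_left _ _),
    max_le (by linarith) ((min_le_right _ _).trans (by linarith))⟩

theorem med_mono (d : ℝ) {v v' : ℝ} (h : v ≤ v') : med 0 d v ≤ med 0 d v' :=
  max_le_max le_rfl (min_le_min h le_rfl)

theorem pl_med {d v : E3 → ℝ} (hd : PLOn d univ) (hv : PLOn v univ) :
    PLOn (fun y => med 0 (d y) (v y)) univ :=
  A2.pl_max (A2.pl_sub (A2.pl_const _ A2.conicalSet_univ) hd)
    (A2.pl_min hv (A2.pl_add (A2.pl_const _ A2.conicalSet_univ) hd))

theorem pl_dist (c : E3) : PLOn (fun y : E3 => dist y c) univ := by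
  have hc := A2.conicalSet_univ (E := E3)
  simpa only [dist_eq_norm] using
    A2.pl_comp_univ (A2.pl_norm_pi 3) (A2.pl_sub (A2.pl_id hc) (A2.pl_const c hc))

theorem pl_inv (G : CH) : PLOn G.invFun univ := ⟨G.cont_inv, G.conical_inv⟩

/-- one push, driven by a function that is monotone along the preimages of the lines -/
theorem step (G : CH) (k : Fin 3) {a ρ : E3 → ℝ} {b : ℝ} (ha : PLOn a univ) (h1 : PLOn ρ univ)
    (h2 : ∀ w, 0 ≤ ρ w) (h3 : ∀ w w', |ρ w - ρ w'| ≤ dist w w' / 2) (hb : ∀ w, ρ w ≤ b)
    (hm : ∀ y y', 0 < ρ (G.toFun y) → 0 < ρ (G.toFun y') →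
      (∀ j, j ≠ k → G.toFun y j = G.toFun y' j) → G.toFun y k < G.toFun y' k →
      G.toFun y k + a y < G.toFun y' k + a y') :
    ∃ H : CH, ∀ y, H.toFun y =
      Function.update (G.toFun y) k (G.toFun y k + med 0 (ρ (G.toFun y)) (a y)) := by
  have hc := A2.conicalSet_univ (E := E3)
  have hg : PLOn (fun w : E3 => w k + med 0 (ρ w) (a (G.invFun w))) univ :=
    A2.pl_add (A2.pl_proj k hc) (pl_med h1 (A2.pl_comp_univ ha (pl_inv G)))
  obtain ⟨Φ, hΦ⟩ := push_thm k hg (fun x s t hst => by
      have h4 : dist (Function.update x k s) (Function.update x k t) ≤ t - s := by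
        refine (dist_pi_le_iff (by linarith)).2 fun j => ?_
        by_cases hj : j = k
        · subst hj
          rw [Function.update_self, Function.update_self, Real.dist_eq, abs_sub_comm,
            abs_of_nonneg (by linarith)]
        · rw [Function.update_of_ne hj, Function.update_of_ne hj, dist_self]
          linarith
      have h5 := h3 (Function.update x k s) (Function.update x k t)
      have h6 := abs_le.1 h5
      simp only [Function.update_self]
      set w := Function.update x k s
      set w' := Function.update x k t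
      have e1 := abs_le.1 (abs_med (h2 w) (a (G.invFun w)))
      have e2 := abs_le.1 (abs_med (h2 w') (a (G.invFun w')))
      rcases (h2 w).eq_or_lt with h7 | h7
      · linarith
      rcases (h2 w').eq_or_lt with h8 | h8
      · linarith
      have h9 := hm (G.invFun w) (G.invFun w') (by rwa [G.apply_inv]) (by rwa [G.apply_inv])
        (fun j hj => by
          rw [G.apply_inv, G.apply_inv]
          simp only [w, w', Function.update_of_ne hj]) (by
          rw [G.apply_inv, G.apply_inv]
          simpa only [w, w', Function.update_self] using hst)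
      rw [G.apply_inv, G.apply_inv, show w k = s from Function.update_self .., 
        show w' k = t from Function.update_self ..] at h9
      unfold med
      rw [add_max, add_max, add_min, add_min]
      exact max_lt_max (by linarith) (min_lt_min h9 (by linarith)))
    fun x => by
      have h4 := fun s => abs_le.1 ((abs_med (h2 (Function.update x k s))
        (a (G.invFun (Function.update x k s)))).trans (hb _))
      refine Continuous.surjective ((continuousOn_univ.1 hg.1).comp
        (continuous_const.update k continuous_id)) ?_ ?_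
      · refine tendsto_atTop_mono (fun s => ?_) (tendsto_atTop_add_const_right _ (-b) tendsto_id)
        simp only [Function.update_self, id]
        linarith [(h4 s).1]
      · refine tendsto_atBot_mono (fun s => ?_) (tendsto_atBot_add_const_right _ b tendsto_id)
        simp only [Function.update_self, id]
        linarith [(h4 s).2]
  refine ⟨G.trans Φ, fun y => ?_⟩
  show Φ.toFun (G.toFun y) = _
  rw [hΦ, G.inv_apply]

/-- the pushes in the directions of `A` -/
theorem pushes (G : CH) (y₀ : E3) {M r : ℝ}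
    (hm : MonoOn G.toFun (G.toFun ⁻¹' ball (G.toFun y₀) (12 * r))) (hr : 0 < r) (hM : 0 ≤ M)
    (hl : ∀ y y', dist (G.toFun y) (G.toFun y') ≤ M * dist y y') (A : Finset (Fin 3)) :
    ∃ H : CH, (∀ y, dist (H.toFun y) (G.toFun y₀) < 12 * r - 3 * r * A.card → ∀ j,
        H.toFun y j = G.toFun y j + if j ∈ A then med 0 r (M * (y j - y₀ j)) else 0) ∧
      (∀ y, 12 * r ≤ dist (G.toFun y) (G.toFun y₀) → H.toFun y = G.toFun y) ∧
      (∀ y j, |H.toFun y j - G.toFun y j| ≤ if j ∈ A then r else 0) ∧
      ∀ y y', dist (H.toFun y) (H.toFun y') ≤ 2 ^ A.card * M * dist y y' := by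
  have hc := A2.conicalSet_univ (E := E3)
  induction A using Finset.induction_on with
  | empty => exact ⟨G, fun y _ j => by simp, fun _ _ => rfl, fun y j => by simp,
      fun y y' => by simpa using hl y y'⟩
  | insert k A hk ih =>
    obtain ⟨H, h1, h2, h3, h4⟩ := ih
    set R := 12 * r - 3 * r * A.card with hR
    have hA : (0 : ℝ) ≤ 3 * r * A.card := by positivity
    let ρ : E3 → ℝ := fun w => max 0 (min r (1 / 2 * (R - dist w (G.toFun y₀))))
    have r0 : ∀ w, 0 ≤ ρ w := fun w => le_max_left _ _
    have r1 : ∀ w, ρ w ≤ r := fun w => max_le hr.le (min_le_left _ _)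
    have r2 : ∀ w w', |ρ w - ρ w'| ≤ dist w w' / 2 := fun w w' => by
      have hd := dist_nonneg (x := w) (y := w')
      refine (abs_max_sub_max_le_max _ _ _ _).trans (max_le (by simpa using by positivity)
        ((abs_min_sub_min_le_max _ _ _ _).trans (max_le (by simpa using by positivity) ?_)))
      have := abs_le.1 (abs_dist_sub_le w w' (G.toFun y₀))
      exact abs_le.2 ⟨by linarith, by linarith⟩
    have r3 : ∀ w, 0 < ρ w → dist w (G.toFun y₀) < R := fun w hw => by
      rcases lt_max_iff.1 hw with h | h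
      · exact absurd h (lt_irrefl _)
      · linarith [(lt_min_iff.1 h).2]
    have r4 : ∀ y, 0 < ρ (H.toFun y) → y ∈ G.toFun ⁻¹' ball (G.toFun y₀) (12 * r) := fun y hy => by
      by_contra h
      have h5 := r3 _ hy
      have h6 : 12 * r ≤ dist (G.toFun y) (G.toFun y₀) := not_lt.1 h
      rw [h2 y h6] at h5
      linarith
    obtain ⟨H', hH⟩ := step H k (a := fun y => M * (y k - y₀ k)) (ρ := ρ)
      (A2.pl_mul _ (A2.pl_sub (A2.pl_proj k hc) (A2.pl_const _ hc)))
      (A2.pl_max (A2.pl_const _ hc) (A2.pl_min (A2.pl_const _ hc)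
        (A2.pl_mul _ (A2.pl_sub (A2.pl_const _ hc) (pl_dist _))))) r0 r2 r1
      fun y y' hy hy' he hlt => by
        have e1 : 0 ≤ ∑ j, (H.toFun y j - H.toFun y' j) * (y j - y' j) := by
          refine (hm y (r4 y hy) y' (r4 y' hy')).trans (Finset.sum_le_sum fun j _ => ?_)
          rw [h1 y (r3 _ hy) j, h1 y' (r3 _ hy') j]
          split_ifs
          · rcases le_total (y j) (y' j) with h | h
            · have := med_mono r (mul_le_mul_of_nonneg_left (sub_le_sub_right h (y₀ j)) hM)
              nlinarith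
            · have := med_mono r (mul_le_mul_of_nonneg_left (sub_le_sub_right h (y₀ j)) hM)
              nlinarith
          · simp
        rw [Finset.sum_eq_single k (fun j _ hj => by rw [he j hj, sub_self, zero_mul])
          (by simp)] at e1
        refine add_lt_add_of_lt_of_le hlt (mul_le_mul_of_nonneg_left ?_ hM)
        nlinarith
    have d1 : ∀ y, dist (H'.toFun y) (H.toFun y) ≤ r := fun y => by
      rw [hH]
      refine (dist_pi_le_iff hr.le).2 fun j => ?_
      by_cases hj : j = k
      · subst hj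
        rw [Function.update_self, Real.dist_eq, add_sub_cancel_left]
        exact (abs_med (r0 _) _).trans (r1 _)
      · rw [Function.update_of_ne hj, dist_self]
        exact hr.le
    rw [Finset.card_insert_of_notMem hk]
    refine ⟨H', fun y hy j => ?_, fun y hy => ?_, fun y j => ?_, fun y y' => ?_⟩
    · have e1 : dist (H.toFun y) (G.toFun y₀) < R - 2 * r := by
        have := dist_triangle_left (H.toFun y) (G.toFun y₀) (H'.toFun y)
        push_cast at hy
        linarith [d1 y]
      have e2 : ρ (H.toFun y) = r := by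
        show max 0 (min r _) = r
        rw [min_eq_left (by linarith), max_eq_right hr.le]
      rw [hH]
      by_cases hj : j = k
      · subst hj
        rw [Function.update_self, h1 y (by linarith), e2]
        simp [hk]
      · rw [Function.update_of_ne hj, h1 y (by linarith)]
        simp [hj]
    · have e2 : ρ (H.toFun y) = 0 := by
        refine (r0 _).eq_or_lt.elim Eq.symm fun h => ?_
        have := r3 _ h
        rw [h2 y hy] at this
        linarith
      rw [hH, e2, med_zero, add_zero, Function.update_eq_self, h2 y hy]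
    · rw [hH]
      by_cases hj : j = k
      · subst hj
        have e := h3 y j
        rw [if_neg hk, abs_nonpos_iff, sub_eq_zero] at e
        rw [Function.update_self, e, add_sub_cancel_left, if_pos (Finset.mem_insert_self _ _)]
        exact (abs_med (r0 _) _).trans (r1 _)
      · rw [Function.update_of_ne hj]
        simpa [hj] using h3 y j
    · have hd := dist_nonneg (x := y) (y := y')
      have e0 : M * dist y y' ≤ 2 ^ A.card * M * dist y y' := by
        rw [mul_assoc]
        exact le_mul_of_one_le_left (by positivity) (one_le_pow₀ one_le_two)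
      have e1 := h4 y y'
      have e2 : ∀ j, |H.toFun y j - H.toFun y' j| ≤ 2 ^ A.card * M * dist y y' := fun j =>
        (dist_le_pi_dist (H.toFun y) (H.toFun y') j).trans e1
      have e3 : (0 : ℝ) ≤ 2 ^ A.card * M * dist y y' := by positivity
      rw [hH, hH, pow_succ]
      refine (dist_pi_le_iff (by positivity)).2 fun j => ?_
      rw [Real.dist_eq]
      by_cases hj : j = k
      · subst hj
        rw [Function.update_self, Function.update_self, add_sub_add_comm]
        have e4 := med_sub_le (w := 0) (w' := 0) (d := ρ (H.toFun y)) (d' := ρ (H.toFun y'))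
          (v := M * (y j - y₀ j)) (v' := M * (y' j - y₀ j)) (a := 2 ^ A.card * M * dist y y')
          (by rw [sub_self, abs_zero, zero_add]; linarith [r2 (H.toFun y) (H.toFun y')]) (by
            rw [← mul_sub, sub_sub_sub_cancel_right, abs_mul, abs_of_nonneg hM]
            exact (mul_le_mul_of_nonneg_left (dist_le_pi_dist y y' j) hM).trans e0)
        linarith [abs_add_le (H.toFun y j - H.toFun y' j) (med 0 (ρ (H.toFun y)) (M * (y j - y₀ j)) -
          med 0 (ρ (H.toFun y')) (M * (y' j - y₀ j))), e2 j]
      · rw [Function.update_of_ne hj, Function.update_of_ne hj]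
        linarith [e2 j]

/-- a map that agrees with `G` off the preimage of a ball keeps the ball -/
theorem keep (G H : CH) {c : E3} {R : ℝ} (h : ∀ y, R ≤ dist (G.toFun y) c → H.toFun y = G.toFun y)
    {y : E3} (hy : dist (G.toFun y) c < R) : dist (H.toFun y) c < R := by
  by_contra hc
  have h1 := h (G.invFun (H.toFun y)) (by rw [G.apply_inv]; exact not_lt.1 hc)
  rw [G.apply_inv] at h1
  have h2 := H.injective h1
  rw [← G.apply_inv (H.toFun y), h2] at hc
  exact hc hy

/-- one hole -/
theorem one' (G : CH) (y₀ : E3) {K r : ℝ}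
    (hm : MonoOn G.toFun (G.toFun ⁻¹' ball (G.toFun y₀) (192 * K * r))) (hr : 0 < r) (hK : 1 ≤ K)
    (hl : ∀ y y', dist (G.toFun y) (G.toFun y') ≤ K * dist y y') :
    ∃ H : CH, (∀ y y', dist (H.toFun y) (H.toFun y') ≤ 130 * K * dist y y') ∧
      (∀ y, 192 * K * r ≤ dist (G.toFun y) (G.toFun y₀) → H.toFun y = G.toFun y) ∧
      ∀ y ∈ closedBall y₀ (r / 2), H.toFun y = G.toFun y₀ + (16 * K) • (y - y₀) := by
  have hc := A2.conicalSet_univ (E := E3)
  have hKr : 0 < K * r := by positivity
  obtain ⟨H, h1, h2, h3, h4⟩ := pushes G y₀ (M := 16 * K) (r := 16 * K * r)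
    (by rwa [show 12 * (16 * K * r) = 192 * K * r by ring]) (by positivity)
    (by positivity) (fun y y' => (hl y y').trans
      (mul_le_mul_of_nonneg_right (by linarith) dist_nonneg)) Finset.univ
  simp only [Finset.card_univ, Fintype.card_fin, Finset.mem_univ, if_true] at h1 h3 h4
  have h5 : ∀ y ∈ closedBall y₀ r, ∀ j, H.toFun y j = G.toFun y j + 16 * K * (y j - y₀ j) := by
    intro y hy j
    have e1 : dist (H.toFun y) (G.toFun y) ≤ 16 * K * r :=
      (dist_pi_le_iff (by positivity)).2 fun j => h3 y j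
    have e2 : dist (G.toFun y) (G.toFun y₀) ≤ K * r :=
      (hl _ _).trans (mul_le_mul_of_nonneg_left hy (by linarith))
    rw [h1 y (by
      push_cast
      linarith [dist_triangle (H.toFun y) (G.toFun y) (G.toFun y₀)]), med_of_le]
    rw [sub_zero, abs_mul, abs_of_nonneg (by positivity)]
    exact mul_le_mul_of_nonneg_left ((dist_le_pi_dist y y₀ j).trans hy) (by positivity)
  have h6 : ∀ y ∈ closedBall y₀ r, ∀ y' ∈ closedBall y₀ r,
      15 * K * dist y y' ≤ dist (H.toFun y) (H.toFun y') := by
    intro y hy y' hy'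
    have hd := dist_nonneg (x := H.toFun y) (y := H.toFun y')
    have hd' := dist_nonneg (x := y) (y := y')
    have e1 : dist y y' ≤ (dist (H.toFun y) (H.toFun y') + K * dist y y') / (16 * K) := by
      refine (dist_pi_le_iff (by positivity)).2 fun j => ?_
      rw [le_div_iff₀ (by positivity), Real.dist_eq, ← abs_of_nonneg (a := 16 * K) (by positivity),
        ← abs_mul]
      have e2 : |H.toFun y j - H.toFun y' j| ≤ _ := dist_le_pi_dist (H.toFun y) (H.toFun y') j
      have e3 : |G.toFun y j - G.toFun y' j| ≤ _ :=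
        (dist_le_pi_dist (G.toFun y) (G.toFun y') j).trans (hl y y')
      rw [show (y j - y' j) * (16 * K) =
        (H.toFun y j - H.toFun y' j) - (G.toFun y j - G.toFun y' j) by
          rw [h5 y hy, h5 y' hy']; ring]
      linarith [abs_sub (H.toFun y j - H.toFun y' j) (G.toFun y j - G.toFun y' j)]
    rw [le_div_iff₀ (by positivity)] at e1
    linarith
  let κ : E3 → ℝ := fun y => max 0 (2 * K * (r - dist y y₀))
  have k0 : ∀ y, 0 ≤ κ y := fun y => le_max_left _ _
  have k1 : ∀ y, r ≤ dist y y₀ → κ y = 0 := fun y hy =>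
    max_eq_left (mul_nonpos_of_nonneg_of_nonpos (by positivity) (by linarith))
  let π : E3 → E3 := fun y j => med 0 (κ y) (G.toFun y j - G.toFun y₀ j)
  have p0 : ∀ y, r ≤ dist y y₀ → π y = 0 := fun y hy => funext fun j => by
    simp only [π, k1 y hy, med_zero, Pi.zero_apply]
  have p1 : ∀ y y', dist (π y) (π y') ≤ 2 * K * dist y y' := fun y y' => by
    have hd' := dist_nonneg (x := y) (y := y')
    refine (dist_pi_le_iff (by positivity)).2 fun j => med_sub_le ?_ ?_
    · rw [sub_self, abs_zero, zero_add]
      refine (abs_max_sub_max_le_max _ _ _ _).trans (max_le (by simpa using by positivity) ?_)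
      rw [← mul_sub, abs_mul, abs_of_nonneg (by positivity), sub_sub_sub_cancel_left]
      exact mul_le_mul_of_nonneg_left (by rw [dist_comm y y']; exact abs_dist_sub_le y' y y₀)
        (by positivity)
    · rw [sub_sub_sub_cancel_right]
      refine ((dist_le_pi_dist (G.toFun y) (G.toFun y') j).trans (hl y y')).trans ?_
      nlinarith
  have p2 : ∀ y ∈ closedBall y₀ r, ∀ y',
      dist (π y) (π y') ≤ 1 / 2 * dist (H.toFun y) (H.toFun y') := by
    intro y hy y'
    have hd := dist_nonneg (x := H.toFun y) (y := H.toFun y')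
    rcases le_total (dist y' y₀) r with h | h
    · linarith [p1 y y', h6 y hy y' h]
    · have hcont : Continuous fun t : ℝ =>
          dist (H.invFun (AffineMap.lineMap (H.toFun y) (H.toFun y') t)) y₀ :=
        (H.continuous_inv.comp AffineMap.lineMap_continuous).dist continuous_const
      obtain ⟨t, ht, e⟩ := intermediate_value_Icc zero_le_one hcont.continuousOn
        (show r ∈ _ from ⟨by simpa [H.inv_apply] using hy, by simpa [H.inv_apply] using h⟩)
      simp only at e
      have e1 := h6 y hy _ e.le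
      rw [H.apply_inv, dist_left_lineMap, Real.norm_of_nonneg ht.1] at e1
      have e2 := p1 y (H.invFun (AffineMap.lineMap (H.toFun y) (H.toFun y') t))
      rw [p0 _ e.ge] at e2
      rw [p0 y' h]
      nlinarith [ht.2]
  have p3 : ∀ y y', dist (π y) (π y') ≤ 1 / 2 * dist (H.toFun y) (H.toFun y') := by
    intro y y'
    rcases le_total (dist y y₀) r with h | h
    · exact p2 y h y'
    rcases le_total (dist y' y₀) r with h' | h'
    · rw [dist_comm, dist_comm (H.toFun y)]
      exact p2 y' h' y
    · rw [p0 y h, p0 y' h', dist_self]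
      positivity
  have hπ : PLOn π univ := A2.pl_pi hc fun j => pl_med (A2.pl_max (A2.pl_const _ hc)
    (A2.pl_mul _ (A2.pl_sub (A2.pl_const _ hc) (pl_dist _))))
    (A2.pl_sub (A2.pl_comp_univ (A2.pl_proj j hc) ⟨G.cont, G.conical⟩) (A2.pl_const _ hc))
  obtain ⟨Φ, hΦ⟩ := nearid (φ := fun w => -π (H.invFun w))
    (A2.pl_neg (A2.pl_comp_univ hπ (pl_inv H))).2 (LipschitzWith.of_dist_le_mul fun w w' => by
      simpa [H.apply_inv] using p3 (H.invFun w) (H.invFun w'))
  have e : ∀ y, (H.trans Φ).toFun y = H.toFun y - π y := fun y => by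
    show Φ.toFun (H.toFun y) = _
    rw [hΦ, H.inv_apply, sub_eq_add_neg]
  refine ⟨H.trans Φ, fun y y' => ?_, fun y hy => ?_, fun y hy => funext fun j => ?_⟩
  · rw [e, e]
    linarith [dist_sub_sub_le (H.toFun y) (π y) (H.toFun y') (π y'), h4 y y', p1 y y']
  · rw [e, h2 y (by linarith), p0 y, sub_zero]
    by_contra h
    have := (hl y y₀).trans (mul_le_mul_of_nonneg_left (not_le.1 h).le (by linarith))
    linarith
  · have hy' : dist y y₀ ≤ r / 2 := hy
    rw [e, Pi.sub_apply, h5 y (hy'.trans (by linarith))]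
    have e1 : π y j = G.toFun y j - G.toFun y₀ j := med_of_le (by
      rw [sub_zero]
      refine ((dist_le_pi_dist (G.toFun y) (G.toFun y₀) j).trans (hl y y₀)).trans
        (le_trans ?_ (le_max_right _ _))
      nlinarith)
    rw [e1]
    simp
    ring

/-- one hole, for a monotone map -/
theorem one (G : CH) (hm : Mono G.toFun) (y₀ : E3) {K r : ℝ} (hr : 0 < r) (hK : 1 ≤ K)
    (hl : ∀ y y', dist (G.toFun y) (G.toFun y') ≤ K * dist y y') :
    ∃ H : CH, (∀ y y', dist (H.toFun y) (H.toFun y') ≤ 130 * K * dist y y') ∧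
      (∀ y, 192 * K * r ≤ dist (G.toFun y) (G.toFun y₀) → H.toFun y = G.toFun y) ∧
      ∀ y ∈ closedBall y₀ (r / 2), H.toFun y = G.toFun y₀ + (16 * K) • (y - y₀) :=
  one' G y₀ (fun y _ y' _ => hm y y') hr hK hl

end Opn

theorem openl_thm : OPENL := by
  intro K G ι s y R hK hl hm hR hs
  classical
  have hK' : (1 : ℝ) ≤ K := hK
  have e : 192 * (K : ℝ) * (R / (192 * K)) = R := by field_simp
  have h0 : ∀ i, ∃ H : CH, (∀ y y', dist (H.toFun y) (H.toFun y') ≤ 130 * K * dist y y') ∧
      (∀ x, R ≤ dist (G.toFun x) (G.toFun (y i)) → H.toFun x = G.toFun x) ∧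
      (i ∈ s → ∀ x ∈ closedBall (y i) (R / (192 * K) / 2),
        H.toFun x = G.toFun (y i) + (16 * K : ℝ) • (x - y i)) := fun i => by
    by_cases hi : i ∈ s
    · obtain ⟨H, a1, a2, a3⟩ := Opn.one' G (y i) (K := K) (r := R / (192 * K))
        (by rw [e]; exact hm i hi) (by positivity) hK' hl.dist_le_mul
      exact ⟨H, a1, by rwa [e] at a2, fun _ => a3⟩
    · refine ⟨G, fun x x' => ?_, fun _ _ => rfl, fun h => absurd h hi⟩
      have hd : 0 ≤ K * dist x x' := by positivity
      linarith [hl.dist_le_mul x x']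
  choose F f1 f2 f3 using h0
  have h1 : ∀ t ⊆ s, ∃ H : CH,
      (∀ x, (∀ i ∈ t, R ≤ dist (G.toFun x) (G.toFun (y i))) → H.toFun x = G.toFun x) ∧
      ∀ i ∈ t, ∀ x, dist (G.toFun x) (G.toFun (y i)) < R → H.toFun x = (F i).toFun x := by
    intro t
    induction t using Finset.induction_on with
    | empty => exact fun _ => ⟨G, fun _ _ => rfl, by simp⟩
    | insert k t hk ih =>
      intro ht
      obtain ⟨H, a1, a2⟩ := ih ((Finset.subset_insert _ _).trans ht)
      have far : ∀ i ∈ t, ∀ w, dist w (G.toFun (y i)) < R → R ≤ dist w (G.toFun (y k)) := by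
        intro i hi w hw
        have := hs i (ht (Finset.mem_insert_of_mem hi)) k (ht (Finset.mem_insert_self _ _))
          (fun h => hk (h ▸ hi))
        linarith [dist_triangle_left (G.toFun (y i)) (G.toFun (y k)) w]
      refine ⟨H.trans (G.symm.trans (F k)), fun x hx => ?_, fun i hi x hx => ?_⟩
      · show (F k).toFun (G.invFun (H.toFun x)) = _
        rw [a1 x fun i hi => hx i (Finset.mem_insert_of_mem hi), G.inv_apply,
          f2 k x (hx k (Finset.mem_insert_self _ _))]
      · show (F k).toFun (G.invFun (H.toFun x)) = _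
        rcases Finset.mem_insert.1 hi with rfl | hi
        · rw [a1 x fun j hj => not_lt.1 fun h => absurd hx (not_lt.2 (far j hj _ h)), G.inv_apply]
        · rw [a2 i hi x hx, f2 k _ (by
            rw [G.apply_inv]
            exact far i hi _ (Opn.keep G (F i) (f2 i) hx)), G.apply_inv]
  obtain ⟨H, a1, a2⟩ := h1 s subset_rfl
  have far : ∀ i ∈ s, ∀ j ∈ s, i ≠ j → ∀ x, dist (G.toFun x) (G.toFun (y i)) < R →
      (F j).toFun x = G.toFun x := fun i hi j hj hij x hx => f2 j x (by
    linarith [hs i hi j hj hij, dist_triangle_left (G.toFun (y i)) (G.toFun (y j)) (G.toFun x)])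
  have b : ∀ x x', ∀ i ∈ s, dist (G.toFun x) (G.toFun (y i)) < R →
      dist (H.toFun x) (H.toFun x') ≤ 300 * K * dist x x' := by
    intro x x' i hi hx
    have hd : 0 ≤ K * dist x x' := by positivity
    have c1 := f1 i x x'
    rw [a2 i hi x hx]
    by_cases h : ∃ j ∈ s, dist (G.toFun x') (G.toFun (y j)) < R
    · obtain ⟨j, hj, hx'⟩ := h
      rw [a2 j hj x' hx']
      by_cases hij : i = j
      · subst hij
        linarith
      · have c2 := f1 j x x'
        rw [far i hi j hj hij x hx] at c2
        rw [far j hj i hi (Ne.symm hij) x' hx'] at c1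
        have c3 := hl.dist_le_mul x' x
        rw [dist_comm x' x] at c3
        linarith [dist_triangle4 ((F i).toFun x) (G.toFun x') (G.toFun x) ((F j).toFun x')]
    · push Not at h
      rw [a1 x' h, ← f2 i x' (h i hi)]
      linarith
  refine ⟨H, LipschitzWith.of_dist_le_mul fun x x' => ?_, a1, fun i hi x hx => ?_,
    fun i hi x hx => ?_⟩
  · push_cast
    by_cases h : ∃ i ∈ s, dist (G.toFun x) (G.toFun (y i)) < R
    · obtain ⟨i, hi, hx⟩ := h
      exact b x x' i hi hx
    by_cases h' : ∃ i ∈ s, dist (G.toFun x') (G.toFun (y i)) < R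
    · obtain ⟨i, hi, hx⟩ := h'
      rw [dist_comm, dist_comm x]
      exact b x' x i hi hx
    push Not at h h'
    rw [a1 x h, a1 x' h']
    have hd : 0 ≤ K * dist x x' := by positivity
    linarith [hl.dist_le_mul x x']
  · rw [a2 i hi x hx]
    exact Opn.keep G (F i) (f2 i) hx
  · have hx' : dist x (y i) ≤ R / (384 * K) := hx
    rw [a2 i hi x, f3 i hi x (by rw [mem_closedBall]; exact hx'.trans_eq (by ring))]
    refine (hl.dist_le_mul _ _).trans_lt
      ((mul_le_mul_of_nonneg_left hx' K.coe_nonneg).trans_lt ?_)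
    rw [show (K : ℝ) * (R / (384 * K)) = R / 384 by field_simp]
    linarith

theorem open_thm : OPEN := fun K G _ s y R hK hl hm hR hs =>
  openl_thm K G s y R hK hl (fun _ _ y _ y' _ => hm y y') hR hs

end P073.Op
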