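import Vale.Agent.P073Y.Op.Pwm
import Vale.Agent.P073Y.B.Defs2

/-!
# Holes of universal relative size in a box that is almost filled by an open set
-/

open Set Metric Topology Filter MeasureTheory
open scoped NNReal

namespace P073.Op

open P073.St.Tg (med med_zero med_of_le med_sub_le)
open P073.Pw (dc)

namespace Pk

open Opn

/-- a small strictly monotone perturbation of the identity is cut off -/
theorem swap {a : E3 → E3} {σ : E3 → ℝ} {r K : ℝ} (ha : ∀ j, PLOn (fun x => a x j) univ)
    (hσ : PLOn σ univ) (h0 : ∀ w w', σ w ≤ σ w' + dist w w') (hr : 0 < r) (hK : 1 ≤ K)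
    (hb : ∀ x j, |a x j| ≤ r) (hl : ∀ x x' j, |a x j - a x' j| ≤ K * dist x x')
    (hm : ∀ x x', 0 < σ x → 0 < σ x' → x ≠ x' →
      0 < ∑ j, (x j + a x j - (x' j + a x' j)) * (x j - x' j)) (A : Finset (Fin 3)) :
    ∃ H : CH, (∀ y, 3 * r * A.card < σ (H.toFun y) → ∀ j,
        H.toFun y j = y j + if j ∈ A then a y j else 0) ∧
      (∀ y, σ y ≤ 0 → H.toFun y = y) ∧
      (∀ y j, |H.toFun y j - y j| ≤ if j ∈ A then r else 0) ∧
      ∀ y y', dist (H.toFun y) (H.toFun y') ≤ 2 ^ A.card * K * dist y y' := by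
  have hc := A2.conicalSet_univ (E := E3)
  induction A using Finset.induction_on with
  | empty =>
    obtain ⟨H, hH⟩ := nearid (φ := fun _ : E3 => (0 : E3)) (A2.pl_const _ hc).2
      ((LipschitzWith.const _).weaken zero_le)
    refine ⟨H, fun y _ j => by simp [hH], fun _ _ => by simp [hH], fun y j => by simp [hH],
      fun y y' => ?_⟩
    simpa [hH] using le_mul_of_one_le_left dist_nonneg hK
  | insert k A hk ih =>
    obtain ⟨H, h1, h2, h3, h4⟩ := ih
    have hA : (0 : ℝ) ≤ 3 * r * A.card := by positivity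
    let ρ : E3 → ℝ := fun w => max 0 (min r (1 / 2 * (σ w - 3 * r * A.card)))
    have r0 : ∀ w, 0 ≤ ρ w := fun w => le_max_left _ _
    have r1 : ∀ w, ρ w ≤ r := fun w => max_le hr.le (min_le_left _ _)
    have r2 : ∀ w w', |ρ w - ρ w'| ≤ dist w w' / 2 := fun w w' => by
      have hd := dist_nonneg (x := w) (y := w')
      refine (abs_max_sub_max_le_max _ _ _ _).trans (max_le (by simpa using by positivity)
        ((abs_min_sub_min_le_max _ _ _ _).trans (max_le (by simpa using by positivity) ?_)))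
      exact abs_le.2 ⟨by linarith [h0 w' w, dist_comm w w'], by linarith [h0 w w']⟩
    have r3 : ∀ w, 0 < ρ w → 3 * r * A.card < σ w := fun w hw => by
      rcases lt_max_iff.1 hw with h | h
      · exact absurd h (lt_irrefl _)
      · linarith [(lt_min_iff.1 h).2]
    have r4 : ∀ y, 0 < ρ (H.toFun y) → 0 < σ y := fun y hy => by
      by_contra h
      have h5 := r3 _ hy
      rw [h2 y (not_lt.1 h)] at h5
      linarith
    obtain ⟨H', hH⟩ := step H k (a := fun y => a y k) (ρ := ρ) (ha k)
      (A2.pl_max (A2.pl_const _ hc) (A2.pl_min (A2.pl_const _ hc)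
        (A2.pl_mul _ (A2.pl_sub hσ (A2.pl_const _ hc))))) r0 r2 r1
      fun y y' hy hy' he hlt => by
        have e0 := h1 y (r3 _ hy)
        have e0' := h1 y' (r3 _ hy')
        have e2 := e0 k
        have e2' := e0' k
        rw [if_neg hk, add_zero] at e2 e2'
        rw [e2, e2'] at hlt ⊢
        have e1 := hm y y' (r4 y hy) (r4 y' hy') fun h => hlt.ne (by rw [h])
        rw [Finset.sum_eq_single k (fun j _ hj => by
          have e3 := he j hj
          rw [e0, e0'] at e3
          split_ifs at e3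
          · rw [e3, sub_self, zero_mul]
          · rw [add_zero, add_zero] at e3
            rw [sub_eq_zero.2 e3, mul_zero]) (by simp)] at e1
        nlinarith
    have d1 : ∀ y, dist (H'.toFun y) (H.toFun y) ≤ r := fun y => by
      rw [hH]
      refine (dist_pi_le_iff hr.le).2 fun j => ?_
      by_cases hj : j = k
      · subst hj
        rw [Function.update_self, Real.dist_eq, add_sub_cancel_left]
        exact (abs_med (r0 _) _).trans (r1 _)
      · rw [Function.update_of_ne hj, dist_self]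
        exact hr.le
    rw [Finset.card_insert_of_notMem hk]
    refine ⟨H', fun y hy j => ?_, fun y hy => ?_, fun y j => ?_, fun y y' => ?_⟩
    · have e1 : 3 * r * A.card + 2 * r < σ (H.toFun y) := by
        push_cast at hy
        linarith [d1 y, h0 (H'.toFun y) (H.toFun y)]
      have e2 : ρ (H.toFun y) = r := by
        show max 0 (min r _) = r
        rw [min_eq_left (by linarith), max_eq_right hr.le]
      rw [hH]
      by_cases hj : j = k
      · subst hj
        rw [Function.update_self, h1 y (by linarith), e2, med_of_le (by simpa using hb y j)]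
        simp [hk]
      · rw [Function.update_of_ne hj, h1 y (by linarith)]
        simp [hj]
    · have e2 : ρ (H.toFun y) = 0 :=
        (r0 _).eq_or_lt.elim Eq.symm fun h => absurd (r4 _ h) (not_lt.2 hy)
      rw [hH, e2, med_zero, add_zero, Function.update_eq_self, h2 y hy]
    · rw [hH]
      by_cases hj : j = k
      · subst hj
        have e := h3 y j
        rw [if_neg hk, abs_nonpos_iff, sub_eq_zero] at e
        rw [Function.update_self, e, add_sub_cancel_left, if_pos (Finset.mem_insert_self _ _)]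
        exact (abs_med (r0 _) _).trans (r1 _)
      · rw [Function.update_of_ne hj]
        simpa [hj] using h3 y j
    · have hd := dist_nonneg (x := y) (y := y')
      have e0 : K * dist y y' ≤ 2 ^ A.card * K * dist y y' := by
        rw [mul_assoc]
        exact le_mul_of_one_le_left (by positivity) (one_le_pow₀ one_le_two)
      have e1 := h4 y y'
      have e2 : ∀ j, |H.toFun y j - H.toFun y' j| ≤ 2 ^ A.card * K * dist y y' := fun j =>
        (dist_le_pi_dist (H.toFun y) (H.toFun y') j).trans e1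
      have e3 : (0 : ℝ) ≤ 2 ^ A.card * K * dist y y' := by positivity
      rw [hH, hH, pow_succ]
      refine (dist_pi_le_iff (by positivity)).2 fun j => ?_
      rw [Real.dist_eq]
      by_cases hj : j = k
      · subst hj
        rw [Function.update_self, Function.update_self, add_sub_add_comm]
        have e4 := med_sub_le (w := 0) (w' := 0) (d := ρ (H.toFun y)) (d' := ρ (H.toFun y'))
          (v := a y j) (v' := a y' j) (a := 2 ^ A.card * K * dist y y')
          (by rw [sub_self, abs_zero, zero_add]; linarith [r2 (H.toFun y) (H.toFun y')])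
          ((hl y y' j).trans e0)
        linarith [abs_add_le (H.toFun y j - H.toFun y' j) (med 0 (ρ (H.toFun y)) (a y j) -
          med 0 (ρ (H.toFun y')) (a y' j)), e2 j]
      · rw [Function.update_of_ne hj, Function.update_of_ne hj]
        linarith [e2 j]

/-- a function that is PL on an open set and vanishes near its complement -/
theorem glue {f : E3 → ℝ} {Λ : Set E3} (hΛ : IsOpen Λ) (hf : PLOn f Λ)
    (h0 : ∀ x, x ∉ Λ → ∀ᶠ y in 𝓝 x, f y = 0) : PLOn f univ := by
  refine ⟨fun x _ => ?_, fun x _ => ?_⟩ <;> by_cases hx : x ∈ Λ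
  · exact (hf.1.continuousAt (hΛ.mem_nhds hx)).continuousWithinAt
  · exact (continuousAt_const.congr (EventuallyEq.symm (h0 x hx))).continuousWithinAt
  · exact (hf.2 x hx).of_mem_nhds (hΛ.mem_nhds hx)
  · exact ((A2.pl_const (0 : ℝ) A2.conicalSet_univ).2 x trivial).congr_nhds (by simp)
      ((h0 x hx).mono fun _ h _ => h) (h0 x hx).self_of_nhds

/-- the monotone collapse as a homeomorphism with support in `0 < ρ` -/
theorem coll : ∃ v₀ : ℝ, 0 < v₀ ∧ ∀ (ρ : E3 → ℝ) (G : Set E3) (ε : ℝ), PLOn ρ univ →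
    (∀ x y, ρ x ≤ ρ y + dist x y) → Bornology.IsBounded {x | 0 < ρ x} →
    (∀ x, 0 < ρ x → ∃ y, ρ y ≤ 0 ∧ dist x y ≤ 1) → IsOpen G →
    volume ({x | 0 < ρ x} \ G) ≤ ENNReal.ofReal v₀ → 0 < ε → ε ≤ 1 →
    ∃ H : CH, LipschitzWith 40 H.toFun ∧ (∀ y, ρ y ≤ 0 → H.toFun y = y) ∧
      (∀ y, dist (H.toFun y) y ≤ 1 / 100000) ∧ MonoOn H.toFun {y | 1 / 1600 ≤ ρ (H.toFun y)} ∧
      ∀ c, 1 / 800 ≤ ρ c → ∃ y ∈ G, 0 < ρ y ∧ dist (H.toFun y) c ≤ ε / 100 := by
  obtain ⟨c₀, hc₀, h⟩ := powm
  refine ⟨c₀ * (1 / 100000 * (1 / 409600)) ^ 3, by positivity,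
    fun ρ G s hρ h0 hb h1 hG hv hs hs1 => ?_⟩
  have hc := A2.conicalSet_univ (E := E3)
  have hρc : Continuous ρ := continuousOn_univ.1 hρ.1
  have hΛ : IsOpen {x | 0 < ρ x} := isOpen_lt continuous_const hρc
  have hU : IsClosed ({x | 1 / 1600 ≤ ρ x} \ G) := (isClosed_le continuous_const hρc).sdiff hG
  have hUΛ : {x | 1 / 1600 ≤ ρ x} \ G ⊆ {x | 0 < ρ x} := fun x hx =>
    lt_of_lt_of_le (by norm_num : (0 : ℝ) < 1 / 1600) hx.1
  obtain ⟨Z, z1, z2, z3, z4, z5⟩ := h _ _ (1 / 100000) hΛ hb hUΛ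
    (fun x _ hx => hU.closure_subset hx) (by norm_num) (by norm_num) fun t ht => by
      rcases lt_or_ge t (1 / 409600) with h2 | h2
      · refine (measure_mono_null (fun x hx => ?_) measure_empty).trans_le zero_le
        obtain ⟨y, hy, -⟩ := h1 x (hUΛ hx.1)
        have h3 : ρ x ≤ dc {x | 0 < ρ x} x := (le_infDist ⟨y, not_lt.2 hy⟩).2 fun w hw => by
          linarith [h0 x w, not_lt.1 (show ¬ 0 < ρ w from hw)]
        have h4 : 1 / 1600 ≤ ρ x := hx.1.1
        linarith [hx.2.2]
      · refine (measure_mono fun x hx => ?_).trans (hv.trans (ENNReal.ofReal_le_ofReal ?_))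
        · exact ⟨hUΛ hx.1, hx.1.2⟩
        · gcongr
  have z6 : ∀ x, 0 < ρ x → dist (Z x) x ≤ 1 / 100000 := fun x hx => by
    obtain ⟨y, hy, hy'⟩ := h1 x hx
    have h3 : dc {x | 0 < ρ x} x ≤ dist x y := infDist_le_dist_of_mem (not_lt.2 hy)
    linarith [z3 x hx]
  let κ : E3 → ℝ := fun x => max 0 (min (1 / 100000) (ρ x - 1 / 12800))
  have k0 : ∀ x, 0 ≤ κ x := fun x => le_max_left _ _
  let a : E3 → E3 := fun x j => med 0 (κ x) ((1 - s) * (Z x j - x j))
  have a1 : ∀ x, 0 < ρ x - 1 / 6400 → ∀ j, a x j = (1 - s) * (Z x j - x j) := fun x hx j => by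
    refine med_of_le (le_trans ?_ (le_max_right _ _))
    rw [min_eq_left (by linarith), sub_zero, abs_mul, abs_of_nonneg (by linarith)]
    have h3 : |Z x j - x j| ≤ _ := (dist_le_pi_dist (Z x) x j).trans (z6 x (by linarith))
    nlinarith [abs_nonneg (Z x j - x j)]
  have a2 : ∀ x x', 0 < ρ x - 1 / 6400 → 0 < ρ x' - 1 / 6400 →
      s * ∑ j, (x j - x' j) ^ 2 ≤ ∑ j, (x j + a x j - (x' j + a x' j)) * (x j - x' j) := by
    intro x x' hx hx'
    have h3 := mul_nonneg (sub_nonneg.2 hs1) (z2 x x')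
    simp only [a1 x hx, a1 x' hx', Fin.sum_univ_three] at h3 ⊢
    linarith
  obtain ⟨H, p1, p2, p3, p4⟩ := swap (a := a) (σ := fun x => ρ x - 1 / 6400) (r := 1 / 100000)
    (K := 5) (fun j => glue hΛ (by
      have hc' := IsOpen.conicalSet hΛ
      have h3 : PLOn κ {x | 0 < ρ x} := A2.pl_max (A2.pl_const _ hc') (A2.pl_min
        (A2.pl_const _ hc') (A2.pl_sub (A2.pl_mono hρ hc' (subset_univ _)) (A2.pl_const _ hc')))
      refine A2.pl_max (A2.pl_sub (A2.pl_const _ hc') h3) (A2.pl_min (A2.pl_congr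
        (A2.pl_sub (A2.pl_comp_univ (A2.pl_proj j hc) (z4 s ⟨hs, hs1⟩)) (A2.pl_proj j hc'))
        fun x _ => ?_) (A2.pl_add (A2.pl_const _ hc') h3))
      simp
      ring) fun x hx => by
      filter_upwards [(hρc.tendsto x).eventually
        (gt_mem_nhds (lt_of_le_of_lt (not_lt.1 hx) (by norm_num : (0 : ℝ) < 1 / 12800)))] with y hy
      have h3 : κ y = 0 := max_eq_left (min_le_of_right_le (by linarith))
      simp only [a, h3, med_zero])
    (A2.pl_sub hρ (A2.pl_const _ hc)) (fun w w' => by linarith [h0 w w']) (by norm_num)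
    (by norm_num) (fun x j => (abs_med (k0 x) _).trans (max_le (by norm_num) (min_le_left _ _)))
    (fun x x' j => by
      have hd := dist_nonneg (x := x) (y := x')
      refine med_sub_le ?_ ?_
      · rw [sub_self, abs_zero, zero_add]
        refine (abs_max_sub_max_le_max _ _ _ _).trans (max_le (by simp)
          ((abs_min_sub_min_le_max _ _ _ _).trans (max_le (by simp) ?_)))
        exact abs_le.2 ⟨by linarith [h0 x' x, dist_comm x x'], by linarith [h0 x x']⟩
      · have h3 : |Z x j - Z x' j| ≤ _ := (dist_le_pi_dist (Z x) (Z x') j).trans (z1 x x')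
        have h4 : |x j - x' j| ≤ _ := dist_le_pi_dist x x' j
        have h5 := abs_sub (Z x j - Z x' j) (x j - x' j)
        rw [← mul_sub, abs_mul, abs_of_nonneg (by linarith), sub_sub_sub_comm]
        nlinarith [abs_nonneg (Z x j - Z x' j - (x j - x' j))])
    (fun x x' hx hx' hne => by
      obtain ⟨j, hj⟩ := Function.ne_iff.1 hne
      exact lt_of_lt_of_le (mul_pos hs (Finset.sum_pos' (fun i _ => sq_nonneg (x i - x' i))
        ⟨j, Finset.mem_univ _, sq_pos_of_ne_zero (sub_ne_zero.2 hj)⟩)) (a2 x x' hx hx'))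
    Finset.univ
  simp only [Finset.card_univ, Fintype.card_fin, Finset.mem_univ, if_true] at p1 p3 p4
  have q1 : ∀ y, dist (H.toFun y) y ≤ 1 / 100000 := fun y =>
    (dist_pi_le_iff (by norm_num)).2 fun j => p3 y j
  refine ⟨H, LipschitzWith.of_dist_le_mul fun x y => (p4 x y).trans_eq (by norm_num),
    fun y hy => p2 y (by linarith), q1, fun x hx x' hx' => ?_, fun c hc => ?_⟩
  · have h3 : 1 / 1600 ≤ ρ (H.toFun x) := hx
    have h4 : 1 / 1600 ≤ ρ (H.toFun x') := hx'
    simp only [p1 x (by push_cast; linarith), p1 x' (by push_cast; linarith)]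
    exact le_trans (by positivity) (a2 x x' (by linarith [h0 (H.toFun x) x, q1 x])
      (by linarith [h0 (H.toFun x') x', q1 x']))
  · obtain ⟨y, y1, y2, y3⟩ := z5 c (lt_of_lt_of_le (by norm_num) hc) (s / 20000) (by positivity)
    have y4 := z6 y y1
    have y5 : 1 / 800 - 1 / 10000 ≤ ρ y := by linarith [h0 c y, dist_triangle_left c y (Z y)]
    refine ⟨y, by_contra fun hy => y2 ⟨le_trans (by norm_num) y5, hy⟩, y1, ?_⟩
    have y6 : dist (H.toFun y) (Z y) ≤ s / 200 := (dist_pi_le_iff (by positivity)).2 fun j => by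
      have h3 : |Z y j - y j| ≤ _ := (dist_le_pi_dist (Z y) y j).trans y4
      rw [p1 y (by push_cast; linarith [h0 y (H.toFun y), q1 y, dist_comm y (H.toFun y)]),
        a1 y (by linarith), Real.dist_eq,
        show y j + (1 - s) * (Z y j - y j) - Z y j = -(s * (Z y j - y j)) by ring, abs_neg,
        abs_mul, abs_of_pos hs]
      nlinarith
    linarith [dist_triangle (H.toFun y) (Z y) c]

end Pk

theorem pack : B.PACK := by
  obtain ⟨v₀, hv₀, h⟩ := Pk.coll
  refine ⟨v₀, 1 / 96, 300 * 40, hv₀, by norm_num, by norm_num, by norm_num,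
    fun N z G l T hN hG hv hl hl1 hT hd => ?_⟩
  have hc := A2.conicalSet_univ (E := E3)
  let ρ : E3 → ℝ := fun x => Finset.univ.inf' Finset.univ_nonempty fun i =>
    min (x i - (z i * Top.wd N i + 1 / 800)) ((z i + 1) * Top.wd N i - 1 / 800 - x i)
  have r1 : ∀ t x, t ≤ ρ x ↔ x ∈ Top.lbox N (1 / 800 + t) z := fun t x => by
    simp only [ρ, Finset.le_inf'_iff, Finset.mem_univ, true_imp_iff, le_min_iff, Top.lbox, mem_Icc,
      Pi.le_def, ← forall_and]
    exact forall_congr' fun i => and_congr ⟨fun h => by linarith, fun h => by linarith⟩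
      ⟨fun h => by linarith, fun h => by linarith⟩
  have r2 : ∀ x y, ρ x ≤ ρ y + dist x y := fun x y => by
    rw [← sub_le_iff_le_add, r1]
    have h1 := (r1 _ x).1 le_rfl
    have h2 := fun i => abs_le.1 (show |x i - y i| ≤ _ from dist_le_pi_dist x y i)
    exact ⟨fun i => by linarith [h1.1 i, (h2 i).2], fun i => by linarith [h1.2 i, (h2 i).1]⟩
  have r3 : {x | 0 < ρ x} ⊆ Top.lbox N (1 / 800) z := fun x hx => by
    simpa using (r1 0 x).1 (le_of_lt hx)
  have r4 : PLOn ρ univ := A2.pl_inf' _ _ fun i _ => A2.pl_min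
    (A2.pl_sub (A2.pl_proj i hc) (A2.pl_const _ hc)) (A2.pl_sub (A2.pl_const _ hc) (A2.pl_proj i hc))
  have r5 : ∀ c ∈ T, 1 / 800 ≤ ρ c := fun c hc => (r1 _ _).2 (by convert hT c hc using 2; norm_num)
  obtain ⟨H, p1, p2, p3, p4, p5⟩ := h ρ G l r4 r2 ((isBounded_Icc _ _).subset r3) (fun x hx => by
    have h1 := (r3 hx).1 2
    have h2 := (r3 hx).2 2
    refine ⟨Function.update x 2 (z 2 * Top.wd N 2 + 1 / 800), not_lt.1 fun h3 => ?_,
      (dist_pi_le_iff zero_le_one).2 fun j => ?_⟩
    · have h4 := ((r1 _ (Function.update x 2 (z 2 * Top.wd N 2 + 1 / 800))).1 le_rfl).1 2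
      rw [Function.update_self] at h4
      linarith
    · by_cases hj : j = 2
      · subst hj
        rw [Function.update_self, Real.dist_eq, abs_of_nonneg (by linarith)]
        have h4 : Top.wd N 2 = 1 := rfl
        simp only [h4] at h1 h2 ⊢
        linarith
      · rw [Function.update_of_ne hj, dist_self]
        exact zero_le_one) hG ((measure_mono (sdiff_subset_sdiff_left r3)).trans hv) hl (by linarith)
  choose! y y1 y2 y3 using p5
  have q1 : ∀ c ∈ T, ∀ w, dist w (H.toFun (y c)) < l / 4 → 1 / 1600 ≤ ρ w := fun c hc w hw => by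
    linarith [r5 c hc, y3 c (r5 c hc), r2 c w, dist_triangle_right c w (H.toFun (y c)),
      dist_comm c (H.toFun (y c))]
  obtain ⟨Φ, f1, f2, f3, f4⟩ := openl_thm 40 H T y (l / 4) (by norm_num) p1
    (fun c hc x hx x' hx' => p4 x (q1 c hc _ hx) x' (q1 c hc _ hx')) (by positivity)
    fun c hc c' hc' hne => by
      linarith [hd c hc c' hc' hne, y3 c (r5 c hc), y3 c' (r5 c' hc'),
        dist_triangle4 c (H.toFun (y c)) (H.toFun (y c')) c', dist_comm c (H.toFun (y c))]
  refine ⟨Φ, f1, fun x hx => ?_, fun x => ?_, fun c hc => ⟨y c, ⟨y1 c (r5 c hc), r3 (y2 c (r5 c hc))⟩,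
    H.toFun (y c), 640, by norm_num, y3 c (r5 c hc), fun x hx => ?_⟩⟩
  · have h1 : ρ x ≤ 0 := not_lt.1 fun h => hx
      (interior_maximal r3 (isOpen_lt continuous_const (continuousOn_univ.1 r4.1)) h)
    rw [f2 x fun c hc => not_lt.1 fun h => ?_, p2 x h1]
    have h2 := q1 c hc _ h
    rw [p2 x h1] at h2
    linarith
  · by_cases h1 : ∃ c ∈ T, dist (H.toFun x) (H.toFun (y c)) < l / 4
    · obtain ⟨c, hc, h1⟩ := h1
      linarith [f3 c hc x h1, p3 x, dist_triangle (Φ.toFun x) (H.toFun x) x,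
        dist_triangle_right (Φ.toFun x) (H.toFun x) (H.toFun (y c))]
    · push Not at h1
      rw [f2 x h1]
      linarith [p3 x]
  · have h1 := f4 c hc (y c + (1 / 640 : ℝ) • (Φ.toFun x - H.toFun (y c))) (by
      rw [mem_closedBall, dist_eq_norm] at hx ⊢
      rw [add_sub_cancel_left, norm_smul, Real.norm_of_nonneg (by norm_num)]
      push_cast
      linarith)
    rw [add_sub_cancel_left, smul_smul, show (16 * (40 : ℝ≥0) * (1 / 640) : ℝ) = 1 by norm_num,
      one_smul, add_sub_cancel] at h1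
    conv_rhs => rw [← Φ.injective h1]
    rw [add_sub_cancel_left, smul_smul, show (640 * (1 / 640) : ℝ) = 1 by norm_num, one_smul,
      add_sub_cancel]

end P073.Op
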