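import Vale.Agent.P073Y.Pw.All
import Vale.Agent.P073Y.Op.Open

/-!
# The power collapse as a monotone map
-/

open Set Metric Topology Filter MeasureTheory
open scoped NNReal RealInnerProductSpace

namespace P073.Op

open P073.Pw

/-- a monotone Lipschitz limit of PL homeomorphisms that maps the complement of `U` onto a dense
set -/
def POWM : Prop := ∃ c : ℝ, 0 < c ∧ ∀ (Λ U : Set E3) (θ : ℝ), IsOpen Λ →
  Bornology.IsBounded Λ → U ⊆ Λ → ClosedIn U Λ → 0 < θ → θ ≤ 1 / 4 →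
  (∀ t : ℝ, 0 < t → volume (U ∩ {y | t ≤ dc Λ y ∧ dc Λ y ≤ 256 * t}) ≤
    ENNReal.ofReal (c * (θ * t) ^ 3)) →
  ∃ Z : E3 → E3, (∀ x y, dist (Z x) (Z y) ≤ 4 * dist x y) ∧ Mono Z ∧
    (∀ x ∈ Λ, dist (Z x) x ≤ θ * dc Λ x) ∧
    (∀ s ∈ Ioc (0:ℝ) 1, PLOn (fun x => (1 - s) • Z x + s • x) Λ) ∧
    ∀ z ∈ Λ, ∀ ε : ℝ, 0 < ε → ∃ y ∈ Λ, y ∉ U ∧ dist (Z y) z ≤ ε

namespace Pwm

variable {F : Type} [NormedAddCommGroup F] [InnerProductSpace ℝ F] [FiniteDimensional ℝ F]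
  {Λ S U : Set F} {τ : F → ℝ} {θ K : ℝ}

/-- points with one active site are dense -/
theorem single (hD : Diag Λ S τ θ) {z : F} (hz : z ∈ Λ) {ε : ℝ} (hε : 0 < ε) :
    ∃ w ∈ Λ, ‖w - z‖ ≤ ε ∧ ∃ β, act S τ w = {β} := by
  obtain ⟨h1, h2, -, h3, -⟩ := pw2 hD z hz
  obtain ⟨β, hβ, hm⟩ := exists_max_image _ (fun β => ‖β - z‖) h2 h1
  have hc : Continuous fun t : ℝ => z + t • (β - z) := by fun_prop
  have ht : Tendsto (fun t : ℝ => z + t • (β - z)) (𝓝[>] 0) (𝓝 z) := by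
    simpa using (hc.tendsto 0).mono_left (nhdsWithin_le_nhds (s := Ioi 0))
  obtain ⟨t, ⟨⟨t1, t2⟩, t3⟩, t4⟩ := (((ht.eventually h3).and
    (ht.eventually (hD.isOpen.mem_nhds hz))).and
    (ht.eventually (closedBall_mem_nhds z hε))).and self_mem_nhdsWithin |>.exists
  refine ⟨_, t2, by rwa [dist_eq_norm] at t3, β, ?_⟩
  obtain ⟨γ, hγ⟩ := (pw2 hD _ t2).1
  have key : ∀ γ ∈ act S τ (z + t • (β - z)), γ = β := fun γ hγ => by
    have a1 := hγ.2 β hβ.1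
    have a2 := hβ.2 γ hγ.1
    have a3 := pow_le_pow_left₀ (norm_nonneg _) (hm γ (t1 hγ)) 2
    have e : ∀ b : F, pw τ b (z + t • (β - z)) =
        pw τ b z - 2 * t * ⟪b - z, β - z⟫ + t ^ 2 * ‖β - z‖ ^ 2 := fun b => by
      rw [pw, pw, show z + t • (β - z) - b = t • (β - z) - (b - z) by abel, norm_sub_sq_real,
        norm_smul, mul_pow, Real.norm_eq_abs, sq_abs, real_inner_smul_left, real_inner_comm,
        norm_sub_rev z b]
      ring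
    rw [e, e, real_inner_self_eq_norm_sq] at a1
    have a4 := norm_sub_sq_real (γ - z) (β - z)
    rw [sub_sub_sub_cancel_right] at a4
    have a5 : 0 < t := t4
    have a6 : ‖β - z‖ ^ 2 ≤ ⟪γ - z, β - z⟫ := by nlinarith
    rw [← sub_eq_zero, ← norm_eq_zero, ← pow_eq_zero_iff two_ne_zero]
    exact le_antisymm (by linarith) (sq_nonneg _)
  exact eq_singleton_iff_unique_mem.2 ⟨key γ hγ ▸ hγ, key⟩

theorem euc (hD : Diag Λ S τ θ) (hK : 1 < K) (hA : Adm Λ S U K τ) :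
    ∃ Z : F → F, (∀ x y, ‖Z x - Z y‖ ≤ K * ‖x - y‖) ∧ (∀ x y, 0 ≤ ⟪Z x - Z y, x - y⟫) ∧
      (∀ x ∈ Λ, ‖Z x - x‖ ≤ 2 * θ * dc Λ x) ∧ ConicalOn Z Λ ∧
      ∀ z ∈ Λ, ∀ ε : ℝ, 0 < ε → ∃ y ∈ Λ, y ∉ U ∧ ‖Z y - z‖ ≤ ε := by
  obtain ⟨Z, z1, z2, z3, z4, z5, z6, -⟩ := pw4 hD hK
  have h2 := pw2 hD
  have K0 : 0 < K := by linarith
  have Ki : K⁻¹ < 1 := inv_lt_one_of_one_lt₀ hK
  have Kp : 0 < K⁻¹ := inv_pos.2 K0
  refine ⟨Z, z3, fun x y => ?_, fun x hx => ?_, z6, fun z hz ε hε => ?_⟩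
  · obtain ⟨q, hq, e⟩ := z1 x
    obtain ⟨q', hq', e'⟩ := z1 y
    have a1 := (pw3 hD).1 _ _ _ _ hq hq'
    have a2 : x - y = K⁻¹ • (Z x - Z y) + (1 - K⁻¹) • (q - q') := by
      conv_lhs => rw [← e, ← e']
      module
    rw [a2, inner_add_right, real_inner_smul_right, real_inner_smul_right]
    exact add_nonneg (mul_nonneg Kp.le real_inner_self_nonneg) (mul_nonneg (by linarith) a1)
  · obtain ⟨q, hq | hq, e⟩ := z1 x
    swap
    · exact (hq.1 (z5 hx)).elim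
    have a1 : q ∈ closedBall (Z x) (θ * dc Λ (Z x)) :=
      convexHull_min (fun β hβ => by
        rw [mem_closedBall, dist_comm, dist_eq_norm]
        exact ((h2 _ (z5 hx)).2.2.1 β hβ).2) (convex_closedBall _ _) hq.2
    rw [mem_closedBall, dist_comm, dist_eq_norm] at a1
    have a2 : Z x - x = (1 - K⁻¹) • (Z x - q) := by
      conv_lhs => rw [← congrArg (Z x - ·) e]
      module
    have a3 : ‖Z x - x‖ ≤ θ * dc Λ (Z x) := by
      rw [a2, norm_smul, Real.norm_of_nonneg (by linarith)]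
      nlinarith [norm_nonneg (Z x - q)]
    have a4 : dc Λ (Z x) ≤ dc Λ x + ‖Z x - x‖ := by
      rw [← dist_eq_norm]
      exact infDist_le_infDist_add_dist
    have a5 : 0 ≤ dc Λ (Z x) := infDist_nonneg
    have a6 := mul_le_mul_of_nonneg_right hD.le a5
    have a7 : dc Λ (Z x) ≤ 2 * dc Λ x := by linarith
    nlinarith [mul_le_mul_of_nonneg_left a7 hD.pos.le]
  · obtain ⟨w, hw, hwz, β, hβ⟩ := single hD hz hε
    have a3 : β ∈ act S τ w := hβ ▸ mem_singleton β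
    have a0 : Z (K⁻¹ • w + (1 - K⁻¹) • β) = w := z2 w β (Or.inl ⟨hw, subset_convexHull ℝ _ a3⟩)
    refine ⟨K⁻¹ • w + (1 - K⁻¹) • β, by_contra fun h => h ?_, fun hy => ?_, by rwa [a0]⟩
    · rw [← z4 _ h, a0]
      exact hw
    obtain ⟨-, -, a1, -, δ, hδ, a2⟩ := h2 _ hw
    have a4 : β + K • (K⁻¹ • w + (1 - K⁻¹) • β - β) = w := by
      rw [smul_sub, smul_add, smul_smul, smul_smul, mul_inv_cancel₀ K0.ne', mul_sub,
        mul_inv_cancel₀ K0.ne']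
      module
    have a5 : 0 < dc Λ w :=
      (hD.isOpen.isClosed_compl.notMem_iff_infDist_pos hD.ne).1 (not_not.2 hw)
    have a6 := hA β a3.1 _ hy (min δ (dc Λ w ^ 2 / 2)) (lt_min hδ (by positivity))
    rw [a4] at a6
    rcases a6 with a6 | ⟨β', b1, b2, b3⟩
    · have a7 := (a1 β a3).1
      have a8 : (θ * dc Λ w) ^ 2 ≤ (1 / 4 * dc Λ w) ^ 2 :=
        pow_le_pow_left₀ (mul_nonneg hD.pos.le a5.le) (mul_le_mul_of_nonneg_right hD.le a5.le) 2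
      nlinarith [min_le_right δ (dc Λ w ^ 2 / 2), sq_nonneg (dc Λ w)]
    · have a7 := a2 β a3 β' b1 (by rwa [hβ])
      linarith [min_le_left δ (dc Λ w ^ 2 / 2)]

end Pwm

theorem powm : POWM := by
  obtain ⟨c, hc, h5⟩ := pw5
  refine ⟨c / 64, by positivity, fun Λ U θ hΛ hb hU hcl hθ hθ4 hvol => ?_⟩
  have hne : Λᶜ.Nonempty := by
    rw [nonempty_compl]
    rintro rfl
    exact NormedSpace.unbounded_univ ℝ E3 hb
  have hne' : (eqv ⁻¹' Λ)ᶜ.Nonempty := by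
    obtain ⟨z, hz⟩ := hne
    exact ⟨eqv.symm z, by simpa using hz⟩
  have hΛ' : IsOpen (eqv ⁻¹' Λ) := hΛ.preimage eqv.continuous
  have hb' : Bornology.IsBounded (eqv ⁻¹' Λ) := eqv.antilipschitz.isBounded_preimage hb
  have hU' : eqv ⁻¹' U ⊆ eqv ⁻¹' Λ := preimage_mono hU
  have hcl' : ClosedIn (eqv ⁻¹' U) (eqv ⁻¹' Λ) := closedIn_preimage eqv.continuous hcl
  obtain ⟨S, hS, hfin, hpack⟩ := h5 (eqv ⁻¹' Λ) (eqv ⁻¹' U) (1 - 2⁻¹) (θ / 4) hΛ' hb' hU' hcl'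
    (by norm_num) (by norm_num) (by linarith) (by linarith) (fun t ht => by
      have hsub : eqv ⁻¹' U ∩ {y | t ≤ dc (eqv ⁻¹' Λ) y ∧ dc (eqv ⁻¹' Λ) y ≤ 48 * t} ⊆
          eqv ⁻¹' (U ∩ {y | t / 2 ≤ dc Λ y ∧ dc Λ y ≤ 256 * (t / 2)}) := by
        rintro y ⟨hy, g1, g2⟩
        obtain ⟨d1, d2⟩ := dc_eqv hne y
        exact ⟨hy, by linarith, by linarith⟩
      refine (measure_mono hsub).trans ((volume_eqv _).trans ((hvol _ (half_pos ht)).trans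
        (ENNReal.ofReal_le_ofReal (le_of_eq (by ring))))))
  obtain ⟨τ, hτ, hadm, hdense⟩ := pw1 (eqv ⁻¹' Λ) S (eqv ⁻¹' U) 2 (θ / 4) hΛ' hb' hne' hS hU' hcl'
    one_lt_two le_rfl (by linarith) (by linarith) hpack
  obtain ⟨Z, p1, p2, p3, p4, p5⟩ :=
    Pwm.euc ⟨hΛ', hne', hS, hfin, hτ, by linarith, by linarith, hdense⟩ one_lt_two hadm
  have back : ∀ {A : Set E3} {x : E3}, x ∈ A → eqv.symm x ∈ eqv ⁻¹' A := fun hx => by
    simpa using hx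
  have q1 : ∀ x y : E3, dist (eqv (Z (eqv.symm x))) (eqv (Z (eqv.symm y))) ≤ 4 * dist x y := by
    intro x y
    have g1 := norm_eqv_le (Z (eqv.symm x) - Z (eqv.symm y))
    have g2 := norm_le_eqv (eqv.symm x - eqv.symm y)
    rw [map_sub, eqv.apply_symm_apply, eqv.apply_symm_apply] at g2
    rw [map_sub] at g1
    rw [dist_eq_norm, dist_eq_norm]
    linarith [p1 (eqv.symm x) (eqv.symm y)]
  refine ⟨fun x => eqv (Z (eqv.symm x)), q1, fun x y => ?_, fun x hx => ?_, fun s _ => ?_,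
    fun z hz ε hε => ?_⟩
  · refine (p2 (eqv.symm x) (eqv.symm y)).trans_eq ?_
    rw [PiLp.inner_apply]
    exact Finset.sum_congr rfl fun i _ => mul_comm _ _
  · have g1 := norm_eqv_le (Z (eqv.symm x) - eqv.symm x)
    rw [map_sub, eqv.apply_symm_apply] at g1
    have g2 := p3 _ (back hx)
    have g3 := (dc_eqv hne (eqv.symm x)).2
    rw [eqv.apply_symm_apply] at g3
    rw [dist_eq_norm]
    linarith [mul_le_mul_of_nonneg_left g3 hθ.le]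
  · refine A2.pl_add (A2.pl_smul _ ⟨?_, ?_⟩) (A2.pl_smul _ (A2.pl_id (IsOpen.conicalSet hΛ)))
    · exact (LipschitzWith.of_dist_le_mul (K := 4) q1).continuous.continuousOn
    · exact (p4.comp (eqvCon hΛ).conical_inv (eqvCon hΛ).mapsTo_inv
        (eqvCon hΛ).cont_inv).linear_comp eqv.toLinearEquiv.toLinearMap
  · obtain ⟨y, y1, y2, y3⟩ := p5 _ (back hz) ε hε
    refine ⟨eqv y, y1, y2, ?_⟩
    have g1 := norm_eqv_le (Z y - eqv.symm z)
    rw [map_sub, eqv.apply_symm_apply] at g1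
    show dist (eqv (Z (eqv.symm (eqv y)))) z ≤ ε
    rw [eqv.symm_apply_apply, dist_eq_norm]
    linarith

end P073.Op
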